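import Vale.Agent.P235.H830.Asm

/-!
# XC, the geometry of the 64 blocks (helper710): definitions

The grid has the size `RX r`; the block `k` (size `r + 2`, so that its interior is an `r × r` grid)
lies on the diagonal.  Four lines run from the roots `rt r k i` (next to the side `i` of the block:
right, bottom, left, top) to the boundary of the large grid.
-/

namespace Vale.Agent.P235.XC

open SimpleGraph Vale.Agent.P235.H134 Vale.Agent.P235.H56 Vale.Agent.P235.H141
open Vale.Agent.P235.H830 (Touch side)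

/-- first row and column of the block `k` -/
def stx (r k : ℕ) : ℕ := 5 + k * (r + 2)

/-- the size of the large grid -/
def RX (r : ℕ) : ℕ := 10 + 64 * (r + 2)

theorem stx_succ (r k : ℕ) : stx r (k + 1) = stx r k + (r + 2) := by unfold stx; ring

theorem stx_le (r : ℕ) (k : Fin 64) : stx r (k.val + 1) + 5 ≤ RX r := by
  have h2 : (k.val + 1) * (r + 2) ≤ 64 * (r + 2) := Nat.mul_le_mul_right _ k.isLt
  unfold RX stx; omega

theorem le_stx (r k : ℕ) : 5 ≤ stx r k := by unfold stx; omega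

/-- the block `k`, of size `r + 2`, on the diagonal -/
def blx (r : ℕ) (k : Fin 64) : Set (Fin (RX r) × Fin (RX r)) :=
  {x | stx r k.val ≤ x.1.val ∧ x.1.val < stx r (k.val + 1) ∧ stx r k.val ≤ x.2.val ∧
    x.2.val < stx r (k.val + 1)}

/-- the lines: right, down, left, up -/
def lin (r : ℕ) (k : Fin 64) (i : Fin 4) : Set (Fin (RX r) × Fin (RX r)) :=
  {x | (i = 0 ∧ x.1.val = stx r k.val + 1 ∧ stx r (k.val + 1) ≤ x.2.val) ∨
    (i = 1 ∧ x.2.val = stx r k.val + 1 ∧ stx r (k.val + 1) ≤ x.1.val) ∨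
    (i = 2 ∧ x.1.val = stx r k.val + 1 ∧ x.2.val < stx r k.val) ∨
    (i = 3 ∧ x.2.val = stx r k.val + 1 ∧ x.1.val < stx r k.val)}

/-- the coordinates of the roots -/
def rtv (r : ℕ) (k : ℕ) (i : Fin 4) : ℕ × ℕ :=
  ![(stx r k + 1, stx r (k + 1)), (stx r (k + 1), stx r k + 1), (stx r k + 1, stx r k - 1),
    (stx r k - 1, stx r k + 1)] i

theorem rtv_lt (r : ℕ) (k : Fin 64) (i : Fin 4) :
    (rtv r k.val i).1 < RX r ∧ (rtv r k.val i).2 < RX r := by
  have h1 := stx_le r k
  have h2 := stx_succ r k.val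
  have h3 := le_stx r k.val
  fin_cases i <;> simp [rtv] <;> omega

/-- the root `i` of the block `k`, outside of the block, next to the side `i` -/
def rt (r : ℕ) (k : Fin 64) (i : Fin 4) : Fin (RX r) × Fin (RX r) :=
  (⟨(rtv r k.val i).1, (rtv_lt r k i).1⟩, ⟨(rtv r k.val i).2, (rtv_lt r k i).2⟩)

/-- the points of a `(r + 2) × (r + 2)` grid in the middle of the sides: right, bottom, left,
top -/
def mi (r : ℕ) (i : Fin 4) : Fin (r + 2) × Fin (r + 2) :=
  ![(1, Fin.last _), (Fin.last _, 1), (1, 0), (0, 1)] i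

/-- the block as a grid of size `r + 2` -/
def ebx (r : ℕ) (k : Fin 64) (p : Fin (r + 2) × Fin (r + 2)) : Fin (RX r) × Fin (RX r) :=
  (⟨stx r k.val + p.1.val, by
      have h1 := p.1.isLt
      have h2 := stx_le r k
      have h3 := stx_succ r k.val
      omega⟩,
    ⟨stx r k.val + p.2.val, by
      have h1 := p.2.isLt
      have h2 := stx_le r k
      have h3 := stx_succ r k.val
      omega⟩)

/-- which of the three sets `A, B, C` (sides `0, 1, 2` of the large grid) the line `i` meets -/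
def sd (i : Fin 4) : Fin 3 := ![2, 2, 1, 0] i

/-- **[X4-grid]** from the root lines of the block `k` to the block `l`, off three vertices -/
def X4Grid : Prop := ∀ (r : ℕ), 1 ≤ r → ∀ k l : Fin 64, k ≠ l →
  ∀ T : Set (Fin (RX r) × Fin (RX r)), T.ncard ≤ 3 → Disjoint T (blx r k) →
    Disjoint T (blx r l) → ∃ Z : Set (Fin (RX r) × Fin (RX r)),
      ((grid (RX r)).induce Z).Connected ∧ blx r l ⊆ Z ∧ Disjoint Z (blx r k) ∧ Disjoint Z T ∧
      ∃ i : Fin 4, rt r k i ∈ Z

/-- the geometry of one block in a model of `Q (RX r)`: `N 0 = C ∪ lines right, down`,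
`N 1 = B ∪ line left`, `N 2 = A ∪ line up`, `M j` = the two more vertices, `x i` the root vertices -/
structure BlockGeo {V : Type} (G : SimpleGraph V) (r : ℕ) (B : Set V)
    (Y : Fin (r + 2) × Fin (r + 2) → Set V) (N : Fin 3 → Set V) (M : Fin 2 → Set V)
    (x : Fin 4 → V) : Prop where
  nconn : ∀ i, (G.induce (N i)).Connected
  mconn : ∀ j, (G.induce (M j)).Connected
  ndisj : ∀ i j, i ≠ j → Disjoint (N i) (N j)
  mdisj : Disjoint (M 0) (M 1)
  nm : ∀ i j, Disjoint (N i) (M j)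
  nB : ∀ i, Disjoint (N i) B
  mB : ∀ j, Disjoint (M j) B
  touch : ∀ i j, Touch G (N i) (M j)
  x0 : x 0 ∈ N 0
  x1 : x 1 ∈ N 0
  x2 : x 2 ∈ N 1
  x3 : x 3 ∈ N 2
  xadj : ∀ i, ∃ y ∈ Y (mi r i), G.Adj (x i) y
  yconn : ∀ p, (G.induce (Y p)).Connected
  ydisj : ∀ p q, p ≠ q → Disjoint (Y p) (Y q)
  yadj : ∀ p q, (grid (r + 2)).Adj p q → Touch G (Y p) (Y q)
  yB : B = ⋃ p, Y p

end Vale.Agent.P235.XC
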