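import Vale.Agent.P235.XC.H710.GDefs
import Vale.Agent.P235.H452.Geo

/-!
# XC, the geometry of the 64 blocks (helper710)
-/

namespace Vale.Agent.P235.XC

open SimpleGraph Vale.Agent.P235.H134 Vale.Agent.P235.H56 Vale.Agent.P235.H141
open Vale.Agent.P235.H830 (Touch side UU UU_conn UU_disj UU_touch UU_mono sub_UU mem_UU UU_disj' Q)
open Vale.Agent.P235.H452 (Rch hor ver adj_hor adj_ver)

section grid

variable {r : ℕ} {k : Fin 64}

theorem conn_of_base {n : ℕ} {Z : Set (Fin n × Fin n)} {b : Fin n × Fin n} (hb : b ∈ Z)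
    (h : ∀ x ∈ Z, Rch Z x b) : ((grid n).induce Z).Connected := by
  have : Nonempty Z := ⟨⟨b, hb⟩⟩
  refine Connected.mk fun x y => ?_
  obtain ⟨_, _, h1⟩ := h x.1 x.2
  obtain ⟨_, _, h2⟩ := h y.1 y.2
  exact h1.trans h2.symm

theorem rt_mem (k : Fin 64) (i : Fin 4) : rt r k i ∈ lin r k i := by
  have h1 := stx_le r k
  have h2 := stx_succ r k.val
  have h3 := le_stx r k.val
  fin_cases i
  · exact Or.inl ⟨rfl, rfl, le_rfl⟩
  · exact Or.inr (Or.inl ⟨rfl, rfl, le_rfl⟩)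
  · refine Or.inr (Or.inr (Or.inl ⟨rfl, rfl, ?_⟩))
    show stx r k.val - 1 < stx r k.val
    omega
  · refine Or.inr (Or.inr (Or.inr ⟨rfl, rfl, ?_⟩))
    show stx r k.val - 1 < stx r k.val
    omega

theorem lin_zero {x : Fin (RX r) × Fin (RX r)} : x ∈ lin r k 0 ↔
    x.1.val = stx r k.val + 1 ∧ stx r (k.val + 1) ≤ x.2.val := by
  constructor
  · rintro (⟨_, h⟩ | ⟨h, _⟩ | ⟨h, _⟩ | ⟨h, _⟩)
    · exact h
    all_goals exact absurd h (by decide)
  · exact fun h => Or.inl ⟨rfl, h⟩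

theorem lin_one {x : Fin (RX r) × Fin (RX r)} : x ∈ lin r k 1 ↔
    x.2.val = stx r k.val + 1 ∧ stx r (k.val + 1) ≤ x.1.val := by
  constructor
  · rintro (⟨h, _⟩ | ⟨_, h⟩ | ⟨h, _⟩ | ⟨h, _⟩)
    · exact absurd h (by decide)
    · exact h
    all_goals exact absurd h (by decide)
  · exact fun h => Or.inr (Or.inl ⟨rfl, h⟩)

theorem lin_two {x : Fin (RX r) × Fin (RX r)} : x ∈ lin r k 2 ↔
    x.1.val = stx r k.val + 1 ∧ x.2.val < stx r k.val := by
  constructor
  · rintro (⟨h, _⟩ | ⟨h, _⟩ | ⟨_, h⟩ | ⟨h, _⟩)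
    · exact absurd h (by decide)
    · exact absurd h (by decide)
    · exact h
    · exact absurd h (by decide)
  · exact fun h => Or.inr (Or.inr (Or.inl ⟨rfl, h⟩))

theorem lin_three {x : Fin (RX r) × Fin (RX r)} : x ∈ lin r k 3 ↔
    x.2.val = stx r k.val + 1 ∧ x.1.val < stx r k.val := by
  constructor
  · rintro (⟨h, _⟩ | ⟨h, _⟩ | ⟨h, _⟩ | ⟨_, h⟩)
    · exact absurd h (by decide)
    · exact absurd h (by decide)
    · exact absurd h (by decide)
    · exact h
  · exact fun h => Or.inr (Or.inr (Or.inr ⟨rfl, h⟩))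

theorem lin_conn (k : Fin 64) (i : Fin 4) : ((grid (RX r)).induce (lin r k i)).Connected := by
  have h1 := stx_le r k
  have h2 := stx_succ r k.val
  have h3 := le_stx r k.val
  refine conn_of_base (rt_mem k i) ?_
  rintro ⟨a, b⟩ hx
  have hrt := rt_mem (r := r) k i
  fin_cases i
  · have hx' := lin_zero.1 hx
    simp only at hx'
    have e : (rt r k 0) = (a, ⟨stx r (k.val + 1), by omega⟩) := by
      refine Prod.ext (Fin.ext ?_) rfl
      exact hx'.1.symm
    show Rch (lin r k 0) (a, b) (rt r k 0)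
    rw [e]
    exact hor _ a (stx r (k.val + 1)) (RX r) (fun t ht _ => lin_zero.2 ⟨hx'.1, ht⟩) _ _ hx'.2
      b.isLt.le le_rfl (by simp only; omega)
  · have hx' := lin_one.1 hx
    simp only at hx'
    have e : (rt r k 1) = (⟨stx r (k.val + 1), by omega⟩, b) := by
      refine Prod.ext rfl (Fin.ext ?_)
      exact hx'.1.symm
    show Rch (lin r k 1) (a, b) (rt r k 1)
    rw [e]
    exact ver _ b (stx r (k.val + 1)) (RX r) (fun t ht _ => lin_one.2 ⟨hx'.1, ht⟩) _ _ hx'.2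
      a.isLt.le le_rfl (by simp only; omega)
  · have hx' := lin_two.1 hx
    simp only at hx'
    have e : (rt r k 2) = (a, ⟨stx r k.val - 1, by omega⟩) := by
      refine Prod.ext (Fin.ext ?_) rfl
      exact hx'.1.symm
    show Rch (lin r k 2) (a, b) (rt r k 2)
    rw [e]
    exact hor _ a 0 (stx r k.val - 1) (fun t _ ht => lin_two.2 ⟨hx'.1, by simp only; omega⟩) _ _
      (Nat.zero_le _) (by omega) (Nat.zero_le _) le_rfl
  · have hx' := lin_three.1 hx
    simp only at hx'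
    have e : (rt r k 3) = (⟨stx r k.val - 1, by omega⟩, b) := by
      refine Prod.ext rfl (Fin.ext ?_)
      exact hx'.1.symm
    show Rch (lin r k 3) (a, b) (rt r k 3)
    rw [e]
    exact ver _ b 0 (stx r k.val - 1) (fun t _ ht => lin_three.2 ⟨hx'.1, by simp only; omega⟩) _ _
      (Nat.zero_le _) (by omega) (Nat.zero_le _) le_rfl

theorem lin_disj (hr : 1 ≤ r) (k : Fin 64) (i j : Fin 4) (hij : i ≠ j) :
    Disjoint (lin r k i) (lin r k j) := by
  have h1 := stx_le r k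
  have h2 := stx_succ r k.val
  have h3 := le_stx r k.val
  rw [Set.disjoint_left]
  rintro x hx hy
  rcases hx with ⟨e, a1, a2⟩ | ⟨e, a1, a2⟩ | ⟨e, a1, a2⟩ | ⟨e, a1, a2⟩ <;>
    rcases hy with ⟨e', b1, b2⟩ | ⟨e', b1, b2⟩ | ⟨e', b1, b2⟩ | ⟨e', b1, b2⟩ <;>
      first
        | exact hij (e.trans e'.symm)
        | omega

theorem lin_blx (k : Fin 64) (i : Fin 4) : Disjoint (lin r k i) (blx r k) := by
  rw [Set.disjoint_left]
  rintro x hx ⟨b1, b2, b3, b4⟩
  rcases hx with ⟨e, a1, a2⟩ | ⟨e, a1, a2⟩ | ⟨e, a1, a2⟩ | ⟨e, a1, a2⟩ <;> omega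

theorem lin_side (k : Fin 64) (i : Fin 4) : ∃ p ∈ lin r k i, p ∈ side (RX r) (sd i) := by
  have h1 := stx_le r k
  have h2 := stx_succ r k.val
  have h3 := le_stx r k.val
  fin_cases i
  · refine ⟨(⟨stx r k.val + 1, by omega⟩, ⟨RX r - 1, by omega⟩),
      lin_zero.2 ⟨rfl, by simp only; omega⟩, Or.inr (Or.inr ⟨rfl, Or.inr ?_⟩)⟩
    simp only; omega
  · refine ⟨(⟨RX r - 1, by omega⟩, ⟨stx r k.val + 1, by omega⟩),
      lin_one.2 ⟨rfl, by simp only; omega⟩, Or.inr (Or.inr ⟨rfl, Or.inl ?_⟩)⟩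
    simp only; omega
  · refine ⟨(⟨stx r k.val + 1, by omega⟩, ⟨0, by omega⟩),
      lin_two.2 ⟨rfl, by simp only; omega⟩, Or.inr (Or.inl ⟨rfl, rfl⟩)⟩
  · refine ⟨(⟨0, by omega⟩, ⟨stx r k.val + 1, by omega⟩),
      lin_three.2 ⟨rfl, by simp only; omega⟩, Or.inl ⟨rfl, rfl⟩⟩

theorem ebx_inj (k : Fin 64) : Function.Injective (ebx r k) := by
  rintro ⟨a, b⟩ ⟨c, d⟩ h
  have h1 := congrArg (fun x => x.1.val) h
  have h2 := congrArg (fun x => x.2.val) h
  simp only [ebx] at h1 h2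
  refine Prod.ext (Fin.ext ?_) (Fin.ext ?_) <;> simp only <;> omega

theorem ebx_mem (k : Fin 64) (p : Fin (r + 2) × Fin (r + 2)) : ebx r k p ∈ blx r k := by
  have h2 := stx_succ r k.val
  have h3 := p.1.isLt
  have h4 := p.2.isLt
  refine ⟨?_, ?_, ?_, ?_⟩ <;> simp only [ebx] <;> omega

theorem ebx_surj (k : Fin 64) {x : Fin (RX r) × Fin (RX r)} (hx : x ∈ blx r k) :
    ∃ p, ebx r k p = x := by
  obtain ⟨h1, h2, h3, h4⟩ := hx
  have h5 := stx_succ r k.val
  refine ⟨(⟨x.1.val - stx r k.val, by omega⟩, ⟨x.2.val - stx r k.val, by omega⟩), ?_⟩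
  refine Prod.ext (Fin.ext ?_) (Fin.ext ?_) <;> simp only [ebx] <;> omega

theorem grid_adj {n : ℕ} {x y : Fin n × Fin n} : (grid n).Adj x y ↔
    (x.2 = y.2 ∧ (x.1.val + 1 = y.1.val ∨ y.1.val + 1 = x.1.val)) ∨
      (x.1 = y.1 ∧ (x.2.val + 1 = y.2.val ∨ y.2.val + 1 = x.2.val)) := by
  rw [grid, boxProd_adj, pathGraph_adj, pathGraph_adj]
  tauto

theorem ebx_adj (k : Fin 64) {p q : Fin (r + 2) × Fin (r + 2)} (h : (grid (r + 2)).Adj p q) :
    (grid (RX r)).Adj (ebx r k p) (ebx r k q) := by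
  rw [grid_adj] at h ⊢
  rcases h with ⟨h1, h2⟩ | ⟨h1, h2⟩
  · left
    refine ⟨Fin.ext ?_, ?_⟩
    · simp only [ebx, h1]
    · simp only [ebx]; omega
  · right
    refine ⟨Fin.ext ?_, ?_⟩
    · simp only [ebx, h1]
    · simp only [ebx]; omega

theorem rt_adj (hr : 1 ≤ r) (k : Fin 64) (i : Fin 4) :
    (grid (RX r)).Adj (rt r k i) (ebx r k (mi r i)) := by
  have h1 := stx_le r k
  have h2 := stx_succ r k.val
  have h3 := le_stx r k.val
  have e1 : (1 : Fin (r + 2)).val = 1 := rfl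
  have e0 : (0 : Fin (r + 2)).val = 0 := rfl
  have el : (Fin.last (r + 1)).val = r + 1 := rfl
  rw [grid_adj]
  fin_cases i
  · right
    refine ⟨Fin.ext ?_, Or.inr ?_⟩
    · show stx r k.val + 1 = stx r k.val + (1 : Fin (r + 2)).val
      rw [e1]
    · show stx r k.val + (Fin.last (r + 1)).val + 1 = stx r (k.val + 1)
      rw [el]; omega
  · left
    refine ⟨Fin.ext ?_, Or.inr ?_⟩
    · show stx r k.val + 1 = stx r k.val + (1 : Fin (r + 2)).val
      rw [e1]
    · show stx r k.val + (Fin.last (r + 1)).val + 1 = stx r (k.val + 1)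
      rw [el]; omega
  · right
    refine ⟨Fin.ext ?_, Or.inl ?_⟩
    · show stx r k.val + 1 = stx r k.val + (1 : Fin (r + 2)).val
      rw [e1]
    · show stx r k.val - 1 + 1 = stx r k.val + (0 : Fin (r + 2)).val
      rw [e0]; omega
  · left
    refine ⟨Fin.ext ?_, Or.inl ?_⟩
    · show stx r k.val + 1 = stx r k.val + (1 : Fin (r + 2)).val
      rw [e1]
    · show stx r k.val - 1 + 1 = stx r k.val + (0 : Fin (r + 2)).val
      rw [e0]; omega

theorem blx_disj {k l : Fin 64} (hkl : k ≠ l) : Disjoint (blx r k) (blx r l) := by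
  have hne : k.val ≠ l.val := fun h => hkl (Fin.ext h)
  rw [Set.disjoint_left]
  rintro x ⟨a1, a2, a3, a4⟩ ⟨b1, b2, b3, b4⟩
  rcases lt_or_gt_of_ne hne with h | h
  · have : (k.val + 1) * (r + 2) ≤ l.val * (r + 2) := Nat.mul_le_mul_right _ h
    unfold stx at *; omega
  · have : (l.val + 1) * (r + 2) ≤ k.val * (r + 2) := Nat.mul_le_mul_right _ h
    unfold stx at *; omega

theorem blx_card (k : Fin 64) : 3 ≤ (blx r k).ncard := by
  classical
  have h : (ebx r k) '' {(0, 0), (0, 1), (1, 0)} ⊆ blx r k := by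
    rintro _ ⟨p, _, rfl⟩
    exact ebx_mem k p
  have h1 := Set.ncard_le_ncard h (Set.toFinite _)
  rw [Set.ncard_image_of_injective _ (ebx_inj k)] at h1
  have h2 : ({(0, 0), (0, 1), (1, 0)} : Set (Fin (r + 2) × Fin (r + 2))).ncard = 3 := by
    refine Set.ncard_eq_three.2 ⟨_, _, _, ?_, ?_, ?_, rfl⟩ <;> simp
  omega

end grid

section model

variable {V : Type} {G : SimpleGraph V}

theorem q_side {R : ℕ} {i : Fin 3} {x : Fin R × Fin R} (h : x ∈ side R i) :
    (Q R).Adj (Sum.inl (Sum.inl i)) (Sum.inr x) := by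
  unfold Q
  rw [fromRel_adj]
  exact ⟨by simp, Or.inl (Or.inr (Or.inr (Or.inl ⟨i, x, h, rfl, rfl⟩)))⟩

theorem q_two {R : ℕ} (i : Fin 3) (j : Fin 2) :
    (Q R).Adj (Sum.inl (Sum.inl i)) (Sum.inl (Sum.inr j)) := by
  unfold Q
  rw [fromRel_adj]
  exact ⟨by simp, Or.inl (Or.inr (Or.inl ⟨i, j, rfl, rfl⟩))⟩

theorem q_grid {R : ℕ} {x y : Fin R × Fin R} (h : (grid R).Adj x y) :
    (Q R).Adj (Sum.inr x) (Sum.inr y) := by
  unfold Q
  rw [fromRel_adj]
  refine ⟨by simpa using h.ne, Or.inl (Or.inr (Or.inr (Or.inr ⟨x, y, h, rfl, rfl⟩)))⟩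

theorem touch_union {A B C D : Set V} (h : Touch G A B) (hC : A ⊆ C) (hD : B ⊆ D) :
    Touch G C D := by
  obtain ⟨x, hx, y, hy, hxy⟩ := h
  exact ⟨x, hC hx, y, hD hy, hxy⟩

theorem conn_union {A B : Set V} (hA : (G.induce A).Connected) (hB : (G.induce B).Connected)
    (h : Touch G A B) : (G.induce (A ∪ B)).Connected := by
  obtain ⟨x, hx, y, hy, hxy⟩ := h
  have hA' : (G.induce (A ∪ {y})).Preconnected := by
    refine Connected.preconnected ?_
    refine (G.induce (A ∪ {y})).connected_iff_exists_forall_reachable.2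
      ⟨⟨x, Or.inl hx⟩, ?_⟩
    rintro ⟨v, hv | hv⟩
    · exact (hA.preconnected ⟨x, hx⟩ ⟨v, hv⟩).map
        (SimpleGraph.induceHomOfLE G (Set.subset_union_left (t := {y}))).toHom
    · rw [Set.mem_singleton_iff] at hv
      subst hv
      exact Adj.reachable (show (G.induce (A ∪ {v})).Adj ⟨x, _⟩ ⟨v, _⟩ from hxy)
  have h1 := induce_union_connected hA' hB.preconnected ⟨y, Or.inr rfl, hy⟩
  have e : A ∪ {y} ∪ B = A ∪ B := by
    rw [Set.union_assoc, Set.singleton_union, Set.insert_eq_of_mem hy]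
  rw [e] at h1
  exact h1

/-- **[X9]** the geometry of the 64 blocks in a graph with the minor `Q (RX r)` -/
theorem geo64 {r : ℕ} (hr : 1 ≤ r) (hm : IsMinor (Q (RX r)) G) :
    ∃ (Y : Fin (RX r) × Fin (RX r) → Set V) (M : Fin 2 → Set V) (N : Fin 64 → Fin 3 → Set V)
      (x : Fin 64 → Fin 4 → V),
      (∀ p, (G.induce (Y p)).Connected) ∧ (∀ p q, p ≠ q → Disjoint (Y p) (Y q)) ∧
      (∀ p q, (grid (RX r)).Adj p q → Touch G (Y p) (Y q)) ∧
      (∀ k i, x k i ∈ Y (rt r k i)) ∧ (∀ j p, Disjoint (M j) (Y p)) ∧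
      ∀ k, BlockGeo G r (UU Y (blx r k)) (fun p => Y (ebx r k p)) (N k) M (x k) := by
  classical
  obtain ⟨φ, hc, hd, ha⟩ := hm
  set S : Fin 3 → Set V := fun i => φ (Sum.inl (Sum.inl i)) with hS
  set M : Fin 2 → Set V := fun j => φ (Sum.inl (Sum.inr j)) with hM
  set Y : Fin (RX r) × Fin (RX r) → Set V := fun p => φ (Sum.inr p) with hY
  have hYc : ∀ p, (G.induce (Y p)).Connected := fun p => hc _
  have hYd : ∀ p q, p ≠ q → Disjoint (Y p) (Y q) := fun p q h => hd _ _ (by simpa using h)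
  have hYa : ∀ p q, (grid (RX r)).Adj p q → ∃ u ∈ Y p, ∃ v ∈ Y q, G.Adj u v := fun p q h =>
    ha _ _ (q_grid h)
  have hSY : ∀ i p, Disjoint (S i) (Y p) := fun i p => hd _ _ (by simp)
  have hMY : ∀ j p, Disjoint (M j) (Y p) := fun j p => hd _ _ (by simp)
  have hSM : ∀ i j, Disjoint (S i) (M j) := fun i j => hd _ _ (by simp)
  have hSS : ∀ i j, i ≠ j → Disjoint (S i) (S j) := fun i j h => hd _ _ (by simpa using h)
  have hSU : ∀ i Z, Disjoint (S i) (UU Y Z) := fun i Z =>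
    (UU_disj' fun p _ => (hSY i p).symm).symm
  have hMU : ∀ j Z, Disjoint (M j) (UU Y Z) := fun j Z =>
    (UU_disj' fun p _ => (hMY j p).symm).symm
  have hST : ∀ i j, Touch G (S i) (M j) := fun i j => ha _ _ (q_two i j)
  -- the legs
  set L : Fin 64 → Fin 4 → Set V := fun k i => S (sd i) ∪ UU Y (lin r k i) with hL
  have hLc : ∀ k i, (G.induce (L k i)).Connected := by
    intro k i
    obtain ⟨p, hp, hps⟩ := lin_side (r := r) k i
    obtain ⟨u, hu, v, hv, huv⟩ := ha _ _ (q_side hps)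
    exact conn_union (hc _) (UU_conn hYc hYa (lin_conn k i)) ⟨u, hu, v, sub_UU hp hv, huv⟩
  have hLB : ∀ k i, Disjoint (L k i) (UU Y (blx r k)) := by
    intro k i
    rw [hL, Set.disjoint_union_left]
    exact ⟨hSU _ _, UU_disj hYd (lin_blx k i)⟩
  have hLM : ∀ k i j, Disjoint (L k i) (M j) := by
    intro k i j
    rw [hL, Set.disjoint_union_left]
    exact ⟨hSM _ _, (hMU _ _).symm⟩
  have hLL : ∀ k i j, sd i ≠ sd j → Disjoint (L k i) (L k j) := by
    intro k i j hij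
    have hne : i ≠ j := fun h => hij (by rw [h])
    rw [hL, Set.disjoint_union_left, Set.disjoint_union_right, Set.disjoint_union_right]
    exact ⟨⟨hSS _ _ hij, hSU _ _⟩, (hSU _ _).symm, UU_disj hYd (lin_disj hr k i j hne)⟩
  have hLt : ∀ k i j, Touch G (L k i) (M j) := fun k i j =>
    touch_union (hST (sd i) j) Set.subset_union_left subset_rfl
  -- the roots
  have hx : ∀ k i, ∃ u ∈ Y (rt r k i), ∃ v ∈ Y (ebx r k (mi r i)), G.Adj u v := fun k i =>
    hYa _ _ (rt_adj hr k i)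
  choose x hx1 y hy1 hxy using hx
  have hxL : ∀ k i, x k i ∈ L k i := fun k i => Or.inr (sub_UU (rt_mem k i) (hx1 k i))
  set N : Fin 64 → Fin 3 → Set V := fun k => ![L k 0 ∪ L k 1, L k 2, L k 3] with hN
  have n0 : ∀ k, N k 0 = L k 0 ∪ L k 1 := fun k => rfl
  have n1 : ∀ k, N k 1 = L k 2 := fun k => rfl
  have n2 : ∀ k, N k 2 = L k 3 := fun k => rfl
  have s0 : sd 0 = 2 := rfl
  have s1 : sd 1 = 2 := rfl
  have s2 : sd 2 = 1 := rfl
  have s3 : sd 3 = 0 := rfl
  have d02 : ∀ k, Disjoint (L k 0) (L k 2) := fun k => hLL k 0 2 (by decide)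
  have d03 : ∀ k, Disjoint (L k 0) (L k 3) := fun k => hLL k 0 3 (by decide)
  have d12 : ∀ k, Disjoint (L k 1) (L k 2) := fun k => hLL k 1 2 (by decide)
  have d13 : ∀ k, Disjoint (L k 1) (L k 3) := fun k => hLL k 1 3 (by decide)
  have d23 : ∀ k, Disjoint (L k 2) (L k 3) := fun k => hLL k 2 3 (by decide)
  have e01 : ∀ k, Disjoint (N k 0) (N k 1) := fun k => by
    rw [n0, n1, Set.disjoint_union_left]; exact ⟨d02 k, d12 k⟩
  have e02 : ∀ k, Disjoint (N k 0) (N k 2) := fun k => by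
    rw [n0, n2, Set.disjoint_union_left]; exact ⟨d03 k, d13 k⟩
  have e12 : ∀ k, Disjoint (N k 1) (N k 2) := fun k => by
    rw [n1, n2]; exact d23 k
  refine ⟨Y, M, N, x, hYc, hYd, hYa, hx1, hMY, fun k => ?_⟩
  refine ⟨?_, fun j => hc _, ?_, hd _ _ (by simp), ?_, ?_, fun j => hMU _ _, ?_,
    Or.inl (hxL k 0), Or.inr (hxL k 1), hxL k 2, hxL k 3, fun i => ⟨y k i, hy1 k i, hxy k i⟩,
    fun p => hYc _, fun p q h => hYd _ _ fun h' => h (ebx_inj k h'),
    fun p q h => hYa _ _ (ebx_adj k h), ?_⟩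
  · intro i
    fin_cases i
    · show (G.induce (N k 0)).Connected
      rw [n0]
      obtain ⟨v⟩ := (hc (Sum.inl (Sum.inl 2))).nonempty
      exact induce_union_connected (hLc k 0).preconnected (hLc k 1).preconnected
        ⟨v.1, Or.inl v.2, Or.inl v.2⟩
    · exact hLc k 2
    · exact hLc k 3
  · intro i j hij
    fin_cases i <;> fin_cases j
    · exact absurd rfl hij
    · exact e01 k
    · exact e02 k
    · exact (e01 k).symm
    · exact absurd rfl hij
    · exact e12 k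
    · exact (e02 k).symm
    · exact (e12 k).symm
    · exact absurd rfl hij
  · intro i j
    fin_cases i
    · show Disjoint (N k 0) (M j)
      rw [n0, Set.disjoint_union_left]
      exact ⟨hLM k 0 j, hLM k 1 j⟩
    · exact hLM k 2 j
    · exact hLM k 3 j
  · intro i
    fin_cases i
    · show Disjoint (N k 0) _
      rw [n0, Set.disjoint_union_left]
      exact ⟨hLB k 0, hLB k 1⟩
    · exact hLB k 2
    · exact hLB k 3
  · intro i j
    fin_cases i
    · exact touch_union (C := N k 0) (hLt k 0 j) (by rw [n0]; exact Set.subset_union_left)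
        subset_rfl
    · exact hLt k 2 j
    · exact hLt k 3 j
  · ext v
    rw [mem_UU, Set.mem_iUnion]
    constructor
    · rintro ⟨p, hp, hv⟩
      obtain ⟨q, rfl⟩ := ebx_surj k hp
      exact ⟨q, hv⟩
    · rintro ⟨q, hv⟩
      exact ⟨_, ebx_mem k q, hv⟩

end model

end Vale.Agent.P235.XC
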