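import Vale.Agent.P235.XC.Defs
import Vale.Agent.P235.H452.Geo

/-!
# XC, [X5a] and [X5b]: geometry of the blocks (helper710)
-/

set_option autoImplicit false

namespace Vale.Agent.P235.XC.H710

open SimpleGraph Vale.Agent.P235.H134
open Vale.Agent.P235.H452 (Rch hor ver)

theorem conn_of_base {n : ℕ} {Z : Set (Fin n × Fin n)} {b : Fin n × Fin n} (hb : b ∈ Z)
    (h : ∀ x ∈ Z, Rch Z x b) : ((grid n).induce Z).Connected := by
  have : Nonempty Z := ⟨⟨b, hb⟩⟩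
  refine Connected.mk fun x y => ?_
  obtain ⟨_, _, h1⟩ := h x.1 x.2
  obtain ⟨_, _, h2⟩ := h y.1 y.2
  exact h1.trans h2.symm

theorem hseg {n : ℕ} (Z : Set (Fin n × Fin n)) (c a b : ℕ) (hc : c < n) (hab : a ≤ b)
    (hb : b < n) (hZ : ∀ x : Fin n × Fin n, x ∈ Z ↔ x.1.val = c ∧ a ≤ x.2.val ∧ x.2.val ≤ b) :
    ((grid n).induce Z).Connected := by
  refine conn_of_base (b := (⟨c, hc⟩, ⟨a, by omega⟩)) ((hZ _).2 ⟨rfl, le_rfl, hab⟩) ?_
  rintro ⟨u, v⟩ hx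
  obtain ⟨h1, h2, h3⟩ := (hZ _).1 hx
  simp only at h1 h2 h3
  have e : u = ⟨c, hc⟩ := Fin.ext h1
  subst e
  exact hor Z _ a b (fun t ht1 ht2 => (hZ _).2 ⟨rfl, ht1, ht2⟩) _ _ h2 h3 le_rfl hab

theorem vseg {n : ℕ} (Z : Set (Fin n × Fin n)) (c a b : ℕ) (hc : c < n) (hab : a ≤ b)
    (hb : b < n) (hZ : ∀ x : Fin n × Fin n, x ∈ Z ↔ x.2.val = c ∧ a ≤ x.1.val ∧ x.1.val ≤ b) :
    ((grid n).induce Z).Connected := by
  refine conn_of_base (b := (⟨a, by omega⟩, ⟨c, hc⟩)) ((hZ _).2 ⟨rfl, le_rfl, hab⟩) ?_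
  rintro ⟨u, v⟩ hx
  obtain ⟨h1, h2, h3⟩ := (hZ _).1 hx
  simp only at h1 h2 h3
  have e : v = ⟨c, hc⟩ := Fin.ext h1
  subst e
  exact ver Z _ a b (fun t ht1 ht2 => (hZ _).2 ⟨rfl, ht1, ht2⟩) _ _ h2 h3 le_rfl hab

theorem grid_adj {n : ℕ} {x y : Fin n × Fin n} : (grid n).Adj x y ↔
    (x.2 = y.2 ∧ (x.1.val + 1 = y.1.val ∨ y.1.val + 1 = x.1.val)) ∨
      (x.1 = y.1 ∧ (x.2.val + 1 = y.2.val ∨ y.2.val + 1 = x.2.val)) := by
  rw [grid, boxProd_adj, pathGraph_adj, pathGraph_adj]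
  tauto

theorem adjv {n : ℕ} {x y : Fin n × Fin n} (h : (x.2.val = y.2.val ∧
    (x.1.val + 1 = y.1.val ∨ y.1.val + 1 = x.1.val)) ∨ (x.1.val = y.1.val ∧
      (x.2.val + 1 = y.2.val ∨ y.2.val + 1 = x.2.val))) : (grid n).Adj x y := by
  rw [grid_adj]
  rcases h with ⟨h1, h2⟩ | ⟨h1, h2⟩
  · exact Or.inl ⟨Fin.ext h1, h2⟩
  · exact Or.inr ⟨Fin.ext h1, h2⟩

variable {r : ℕ}

theorem bs_le (r : ℕ) (k : Fin 64) : bs r k.val + (r + 6) + 5 ≤ RX r := by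
  have h2 : (k.val + 1) * (r + 6) ≤ 64 * (r + 6) := Nat.mul_le_mul_right _ k.isLt
  have h3 : (k.val + 1) * (r + 6) = k.val * (r + 6) + (r + 6) := by ring
  unfold RX bs; omega

theorem le_bs (r k : ℕ) : 5 ≤ bs r k := by unfold bs; omega

theorem bs_sep (r : ℕ) {k l : Fin 64} (h : k ≠ l) :
    bs r k.val + (r + 6) ≤ bs r l.val ∨ bs r l.val + (r + 6) ≤ bs r k.val := by
  have hne : k.val ≠ l.val := fun h' => h (Fin.ext h')
  rcases lt_or_gt_of_ne hne with h | h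
  · left
    have h1 : (k.val + 1) * (r + 6) ≤ l.val * (r + 6) := Nat.mul_le_mul_right _ h
    have h3 : (k.val + 1) * (r + 6) = k.val * (r + 6) + (r + 6) := by ring
    unfold bs; omega
  · right
    have h1 : (l.val + 1) * (r + 6) ≤ k.val * (r + 6) := Nat.mul_le_mul_right _ h
    have h3 : (l.val + 1) * (r + 6) = l.val * (r + 6) + (r + 6) := by ring
    unfold bs; omega

theorem fin4 (i : Fin 4) : i = 0 ∨ i = 1 ∨ i = 2 ∨ i = 3 := by omega

/-- coordinates of the roots -/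
def rv (r b : ℕ) (i : Fin 4) : ℕ × ℕ :=
  ![(b + 1, b + (r + 2)), (b + (r + 2), b + 1), (b + 1, b - 1), (b - 1, b + 1)] i

theorem rv_lt (r : ℕ) (k : Fin 64) (i : Fin 4) :
    (rv r (bs r k.val) i).1 < RX r ∧ (rv r (bs r k.val) i).2 < RX r := by
  have h1 := bs_le r k
  have h3 := le_bs r k.val
  rcases fin4 i with rfl | rfl | rfl | rfl <;> simp [rv] <;> omega

/-- the root `i` of the block `k` -/
def rtX (r : ℕ) (k : Fin 64) (i : Fin 4) : Pos r :=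
  (⟨(rv r (bs r k.val) i).1, (rv_lt r k i).1⟩, ⟨(rv r (bs r k.val) i).2, (rv_lt r k i).2⟩)

/-- the interior of the block `k` -/
def innX (r : ℕ) (k : Fin 64) (p : Fin r × Fin r) : Pos r :=
  (⟨bs r k.val + 1 + p.1.val, by
      have h1 := p.1.isLt
      have h2 := bs_le r k
      omega⟩,
    ⟨bs r k.val + 1 + p.2.val, by
      have h1 := p.2.isLt
      have h2 := bs_le r k
      omega⟩)

theorem lin0 {k : Fin 64} (x : Pos r) : x ∈ linX r k 0 ↔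
    x.1.val = bs r k.val + 1 ∧ bs r k.val + (r + 2) ≤ x.2.val ∧ x.2.val ≤ RX r - 1 := by
  have h := x.2.isLt
  constructor
  · rintro (⟨_, h⟩ | ⟨h, _⟩ | ⟨h, _⟩ | ⟨h, _⟩)
    · exact ⟨h.1, h.2, by omega⟩
    all_goals exact absurd h (by decide)
  · exact fun h => Or.inl ⟨rfl, h.1, h.2.1⟩

theorem lin1 {k : Fin 64} (x : Pos r) : x ∈ linX r k 1 ↔
    x.2.val = bs r k.val + 1 ∧ bs r k.val + (r + 2) ≤ x.1.val ∧ x.1.val ≤ RX r - 1 := by
  have h := x.1.isLt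
  constructor
  · rintro (⟨h, _⟩ | ⟨_, h⟩ | ⟨h, _⟩ | ⟨h, _⟩)
    · exact absurd h (by decide)
    · exact ⟨h.2, h.1, by omega⟩
    all_goals exact absurd h (by decide)
  · exact fun h => Or.inr (Or.inl ⟨rfl, h.2.1, h.1⟩)

theorem lin2 {k : Fin 64} (x : Pos r) : x ∈ linX r k 2 ↔
    x.1.val = bs r k.val + 1 ∧ 0 ≤ x.2.val ∧ x.2.val ≤ bs r k.val - 1 := by
  have h0 := le_bs r k.val
  constructor
  · rintro (⟨h, _⟩ | ⟨h, _⟩ | ⟨_, h⟩ | ⟨h, _⟩)
    · exact absurd h (by decide)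
    · exact absurd h (by decide)
    · exact ⟨h.1, Nat.zero_le _, by omega⟩
    · exact absurd h (by decide)
  · exact fun h => Or.inr (Or.inr (Or.inl ⟨rfl, h.1, by omega⟩))

theorem lin3 {k : Fin 64} (x : Pos r) : x ∈ linX r k 3 ↔
    x.2.val = bs r k.val + 1 ∧ 0 ≤ x.1.val ∧ x.1.val ≤ bs r k.val - 1 := by
  have h0 := le_bs r k.val
  constructor
  · rintro (⟨h, _⟩ | ⟨h, _⟩ | ⟨h, _⟩ | ⟨_, h⟩)
    · exact absurd h (by decide)
    · exact absurd h (by decide)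
    · exact absurd h (by decide)
    · exact ⟨h.2, Nat.zero_le _, by omega⟩
  · exact fun h => Or.inr (Or.inr (Or.inr ⟨rfl, by omega, h.1⟩))

theorem arc0 {k : Fin 64} (x : Pos r) : x ∈ arcX r k 0 ↔ x.2.val = bs r k.val + (r + 1) ∧
    bs r k.val ≤ x.1.val ∧ x.1.val ≤ bs r k.val + r := by
  constructor
  · rintro ⟨⟨b1, b2, b3, b4⟩, ⟨_, h⟩ | ⟨h, _⟩ | ⟨h, _⟩ | ⟨h, _⟩⟩
    · exact ⟨h.1, b1, by omega⟩
    all_goals exact absurd h (by decide)
  · exact fun h => ⟨⟨by omega, by omega, by omega, by omega⟩, Or.inl ⟨rfl, h.1, by omega⟩⟩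

theorem arc1 {k : Fin 64} (x : Pos r) : x ∈ arcX r k 1 ↔ x.1.val = bs r k.val + (r + 1) ∧
    bs r k.val + 1 ≤ x.2.val ∧ x.2.val ≤ bs r k.val + (r + 1) := by
  constructor
  · rintro ⟨⟨b1, b2, b3, b4⟩, ⟨h, _⟩ | ⟨_, h⟩ | ⟨h, _⟩ | ⟨h, _⟩⟩
    · exact absurd h (by decide)
    · exact ⟨h.1, by omega, by omega⟩
    all_goals exact absurd h (by decide)
  · exact fun h => ⟨⟨by omega, by omega, by omega, by omega⟩,
      Or.inr (Or.inl ⟨rfl, h.1, by omega⟩)⟩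

theorem arc2 {k : Fin 64} (x : Pos r) : x ∈ arcX r k 2 ↔ x.2.val = bs r k.val ∧
    bs r k.val + 1 ≤ x.1.val ∧ x.1.val ≤ bs r k.val + (r + 1) := by
  constructor
  · rintro ⟨⟨b1, b2, b3, b4⟩, ⟨h, _⟩ | ⟨h, _⟩ | ⟨_, h⟩ | ⟨h, _⟩⟩
    · exact absurd h (by decide)
    · exact absurd h (by decide)
    · exact ⟨h.1, by omega, by omega⟩
    · exact absurd h (by decide)
  · exact fun h => ⟨⟨by omega, by omega, by omega, by omega⟩,
      Or.inr (Or.inr (Or.inl ⟨rfl, h.1, by omega⟩))⟩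

theorem arc3 {k : Fin 64} (x : Pos r) : x ∈ arcX r k 3 ↔ x.1.val = bs r k.val ∧
    bs r k.val ≤ x.2.val ∧ x.2.val ≤ bs r k.val + r := by
  constructor
  · rintro ⟨⟨b1, b2, b3, b4⟩, ⟨h, _⟩ | ⟨h, _⟩ | ⟨h, _⟩ | ⟨_, h⟩⟩
    · exact absurd h (by decide)
    · exact absurd h (by decide)
    · exact absurd h (by decide)
    · exact ⟨h.1, by omega, by omega⟩
  · exact fun h => ⟨⟨by omega, by omega, by omega, by omega⟩,
      Or.inr (Or.inr (Or.inr ⟨rfl, h.1, by omega⟩))⟩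

/-- **[X5a]** -/
theorem geo : GeoStmt := by
  intro r hr k
  have h1 := bs_le r k
  have h3 := le_bs r k.val
  refine ⟨rtX r k, innX r k, ?_, ?_, ?_, ?_, ?_, ?_, ?_, ?_, ?_, ?_, ?_, ?_, ?_, ?_, ?_, ?_, ?_⟩
  · -- root
    intro i
    rcases fin4 i with rfl | rfl | rfl | rfl
    · exact Or.inl ⟨rfl, rfl, rfl⟩
    · exact Or.inr (Or.inl ⟨rfl, rfl, rfl⟩)
    · refine Or.inr (Or.inr (Or.inl ⟨rfl, rfl, ?_⟩))
      show bs r k.val - 1 + 1 = bs r k.val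
      omega
    · refine Or.inr (Or.inr (Or.inr ⟨rfl, ?_, rfl⟩))
      show bs r k.val - 1 + 1 = bs r k.val
      omega
  · -- lines are connected
    intro i
    rcases fin4 i with rfl | rfl | rfl | rfl
    · exact hseg _ _ _ _ (by omega) (by omega) (by omega) lin0
    · exact vseg _ _ _ _ (by omega) (by omega) (by omega) lin1
    · exact hseg _ _ _ _ (by omega) (by omega) (by omega) lin2
    · exact vseg _ _ _ _ (by omega) (by omega) (by omega) lin3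
  · -- roots are on the lines
    intro i
    rcases fin4 i with rfl | rfl | rfl | rfl
    · exact (lin0 _).2 ⟨rfl, le_rfl, by show bs r k.val + (r + 2) ≤ RX r - 1; omega⟩
    · exact (lin1 _).2 ⟨rfl, le_rfl, by show bs r k.val + (r + 2) ≤ RX r - 1; omega⟩
    · exact (lin2 _).2 ⟨rfl, Nat.zero_le _, le_rfl⟩
    · exact (lin3 _).2 ⟨rfl, Nat.zero_le _, le_rfl⟩
  · -- lines are disjoint
    intro i j hij
    rw [Set.disjoint_left]
    rintro x hx hy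
    rcases hx with ⟨e, a1, a2⟩ | ⟨e, a1, a2⟩ | ⟨e, a1, a2⟩ | ⟨e, a1, a2⟩ <;>
      rcases hy with ⟨e', b1, b2⟩ | ⟨e', b1, b2⟩ | ⟨e', b1, b2⟩ | ⟨e', b1, b2⟩ <;>
        first
          | exact hij (e.trans e'.symm)
          | omega
  · -- lines are off the blocks
    intro i l
    rw [Set.disjoint_left]
    rintro x hx ⟨b1, b2, b3, b4⟩
    by_cases hkl : k = l
    · subst hkl
      rcases hx with ⟨e, a1, a2⟩ | ⟨e, a1, a2⟩ | ⟨e, a1, a2⟩ | ⟨e, a1, a2⟩ <;> omega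
    · have h5 := bs_sep r hkl
      rcases hx with ⟨e, a1, a2⟩ | ⟨e, a1, a2⟩ | ⟨e, a1, a2⟩ | ⟨e, a1, a2⟩ <;> omega
  · -- ends
    refine ⟨⟨(⟨bs r k.val + 1, by omega⟩, ⟨RX r - 1, by omega⟩), (lin0 _).2 ⟨rfl, ?_, le_rfl⟩, ?_⟩,
      ⟨(⟨RX r - 1, by omega⟩, ⟨bs r k.val + 1, by omega⟩), (lin1 _).2 ⟨rfl, ?_, le_rfl⟩, ?_⟩,
      ⟨(⟨bs r k.val + 1, by omega⟩, ⟨0, by omega⟩), (lin2 _).2 ⟨rfl, le_rfl, Nat.zero_le _⟩, rfl⟩,
      ⟨(⟨0, by omega⟩, ⟨bs r k.val + 1, by omega⟩), (lin3 _).2 ⟨rfl, le_rfl, Nat.zero_le _⟩,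
        rfl⟩⟩ <;> simp only <;> omega
  · -- arcs are connected
    intro i
    rcases fin4 i with rfl | rfl | rfl | rfl
    · exact vseg _ _ _ _ (by omega) (by omega) (by omega) arc0
    · exact hseg _ _ _ _ (by omega) (by omega) (by omega) arc1
    · exact vseg _ _ _ _ (by omega) (by omega) (by omega) arc2
    · exact hseg _ _ _ _ (by omega) (by omega) (by omega) arc3
  · -- arcs are disjoint
    intro i j hij
    rw [Set.disjoint_left]
    rintro x ⟨-, hx⟩ ⟨-, hy⟩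
    rcases hx with ⟨e, a1, a2⟩ | ⟨e, a1, a2⟩ | ⟨e, a1, a2⟩ | ⟨e, a1, a2⟩ <;>
      rcases hy with ⟨e', b1, b2⟩ | ⟨e', b1, b2⟩ | ⟨e', b1, b2⟩ | ⟨e', b1, b2⟩ <;>
        first
          | exact hij (e.trans e'.symm)
          | omega
  · -- roots are next to the arcs
    intro i
    rcases fin4 i with rfl | rfl | rfl | rfl
    · refine ⟨(⟨bs r k.val + 1, by omega⟩, ⟨bs r k.val + (r + 1), by omega⟩),
        (arc0 _).2 ⟨rfl, ?_, ?_⟩, adjv (Or.inr ⟨rfl, Or.inr ?_⟩)⟩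
      · simp only; omega
      · simp only; omega
      · show bs r k.val + (r + 1) + 1 = bs r k.val + (r + 2)
        omega
    · refine ⟨(⟨bs r k.val + (r + 1), by omega⟩, ⟨bs r k.val + 1, by omega⟩),
        (arc1 _).2 ⟨rfl, le_rfl, ?_⟩, adjv (Or.inl ⟨rfl, Or.inr ?_⟩)⟩
      · simp only; omega
      · show bs r k.val + (r + 1) + 1 = bs r k.val + (r + 2)
        omega
    · refine ⟨(⟨bs r k.val + 1, by omega⟩, ⟨bs r k.val, by omega⟩),
        (arc2 _).2 ⟨rfl, le_rfl, ?_⟩, adjv (Or.inr ⟨rfl, Or.inl ?_⟩)⟩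
      · simp only; omega
      · show bs r k.val - 1 + 1 = bs r k.val
        omega
    · refine ⟨(⟨bs r k.val, by omega⟩, ⟨bs r k.val + 1, by omega⟩),
        (arc3 _).2 ⟨rfl, ?_, ?_⟩, adjv (Or.inl ⟨rfl, Or.inl ?_⟩)⟩
      · simp only; omega
      · simp only; omega
      · show bs r k.val - 1 + 1 = bs r k.val
        omega
  · -- the interior
    rintro ⟨a, b⟩ ⟨c, d⟩ h
    have e1 := congrArg (fun x => x.1.val) h
    have e2 := congrArg (fun x => x.2.val) h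
    simp only [innX] at e1 e2
    refine Prod.ext (Fin.ext ?_) (Fin.ext ?_) <;> simp only <;> omega
  · intro p q h
    rw [grid_adj] at h
    refine adjv ?_
    simp only [innX]
    rcases h with ⟨e1, e2⟩ | ⟨e1, e2⟩
    · left
      rw [e1]
      exact ⟨rfl, by omega⟩
    · right
      rw [e1]
      exact ⟨rfl, by omega⟩
  · intro p
    have h4 := p.1.isLt
    have h5 := p.2.isLt
    refine ⟨?_, ?_, ?_, ?_⟩ <;> simp only [innX] <;> omega
  · rintro p i ⟨-, hx⟩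
    have h4 := p.1.isLt
    have h5 := p.2.isLt
    simp only [innX] at hx
    rcases hx with ⟨e, a1, a2⟩ | ⟨e, a1, a2⟩ | ⟨e, a1, a2⟩ | ⟨e, a1, a2⟩ <;> omega
  · intro p hp
    have h4 := p.1.isLt
    refine ⟨(⟨bs r k.val + 1 + p.1.val, by omega⟩, ⟨bs r k.val + (r + 1), by omega⟩),
      (arc0 _).2 ⟨rfl, ?_, ?_⟩, adjv (Or.inr ⟨rfl, Or.inl ?_⟩)⟩
    · simp only; omega
    · simp only; omega
    · show bs r k.val + 1 + p.2.val + 1 = bs r k.val + (r + 1)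
      omega
  · intro p hp
    have h5 := p.2.isLt
    refine ⟨(⟨bs r k.val + (r + 1), by omega⟩, ⟨bs r k.val + 1 + p.2.val, by omega⟩),
      (arc1 _).2 ⟨rfl, ?_, ?_⟩, adjv (Or.inl ⟨rfl, Or.inl ?_⟩)⟩
    · simp only; omega
    · simp only; omega
    · show bs r k.val + 1 + p.1.val + 1 = bs r k.val + (r + 1)
      omega
  · intro p hp
    have h4 := p.1.isLt
    refine ⟨(⟨bs r k.val + 1 + p.1.val, by omega⟩, ⟨bs r k.val, by omega⟩),
      (arc2 _).2 ⟨rfl, ?_, ?_⟩, adjv (Or.inr ⟨rfl, Or.inr ?_⟩)⟩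
    · simp only; omega
    · simp only; omega
    · show bs r k.val + 1 = bs r k.val + 1 + p.2.val
      omega
  · intro p hp
    have h5 := p.2.isLt
    refine ⟨(⟨bs r k.val, by omega⟩, ⟨bs r k.val + 1 + p.2.val, by omega⟩),
      (arc3 _).2 ⟨rfl, ?_, ?_⟩, adjv (Or.inl ⟨rfl, Or.inr ?_⟩)⟩
    · simp only; omega
    · simp only; omega
    · show bs r k.val + 1 = bs r k.val + 1 + p.1.val
      omega

/-- **[X5b]** -/
theorem blocks : BlocksStmt := by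
  intro r hr
  refine ⟨?_, ?_, ?_⟩
  · intro k
    have h1 := bs_le r k
    refine conn_of_base (b := (⟨bs r k.val, by omega⟩, ⟨bs r k.val, by omega⟩))
      ⟨le_rfl, by simp only; omega, le_rfl, by simp only; omega⟩ ?_
    rintro ⟨u, v⟩ ⟨a1, a2, a3, a4⟩
    simp only at a1 a2 a3 a4
    refine (hor (blkX r k) u (bs r k.val) (bs r k.val + (r + 1)) (fun t h2 h3 => ?_) v
      ⟨bs r k.val, by omega⟩ a3 (by omega) le_rfl (by simp only; omega)).trans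
      (ver (blkX r k) _ (bs r k.val) (bs r k.val + (r + 1)) (fun t h2 h3 => ?_) u
      ⟨bs r k.val, by omega⟩ a1 (by omega) le_rfl (by simp only; omega))
    · exact ⟨a1, a2, h2, by simp only; omega⟩
    · exact ⟨h2, by simp only; omega, le_rfl, by simp only; omega⟩
  · intro k l hkl
    have h5 := bs_sep r hkl
    rw [Set.disjoint_left]
    rintro x ⟨a1, a2, a3, a4⟩ ⟨b1, b2, b3, b4⟩
    omega
  · intro k
    have h1 := bs_le r k
    let f : ℕ → Pos r := fun i => (⟨bs r k.val, by omega⟩, ⟨bs r k.val + min i 2, by omega⟩)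
    have h : ({f 0, f 1, f 2} : Set (Pos r)) ⊆ blkX r k := by
      intro x hx
      simp only [Set.mem_insert_iff, Set.mem_singleton_iff] at hx
      rcases hx with rfl | rfl | rfl <;>
        refine ⟨le_rfl, ?_, ?_, ?_⟩ <;> simp only [f] <;> omega
    have h2 : ({f 0, f 1, f 2} : Set (Pos r)).ncard = 3 := by
      refine Set.ncard_eq_three.2 ⟨_, _, _, ?_, ?_, ?_, rfl⟩ <;>
        (intro hc; have := congrArg (fun x => x.2.val) hc; simp only [f] at this; omega)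
    have h3 := Set.ncard_le_ncard h (Set.toFinite _)
    omega

end Vale.Agent.P235.XC.H710
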